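import Vale.Agent.Lib.P348.helper23.Basics

/-!
Pool job P348-K7 (owner helper23), second copy: for two commuting Hermitian matrices `H`, `N`
and an eigenvalue of `H`, a unit joint eigenvector whose `N`-eigenvalue is the largest one that
occurs on that eigenspace of `H`.
-/

namespace Vale.Agent.Lib.P348.H93

open Matrix

open Vale.Agent.Lib.P361 Vale.Agent.Lib.P348

theorem top_eig_real {n : Type*} [Fintype n] [DecidableEq n] (N : Matrix n n ℂ)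
    (hN : N.IsHermitian) (φ : n → ℂ) (hφ : φ ≠ 0) (c : ℂ) (h : N *ᵥ φ = c • φ) :
    ∃ k, c = (hN.eigenvalues k : ℂ) := by
  have h1 : Module.End.HasEigenvalue (Matrix.toLin' N) c := by
    apply Module.End.hasEigenvalue_of_hasEigenvector (x := φ)
    refine ⟨?_, hφ⟩
    rw [Module.End.mem_eigenspace_iff, Matrix.toLin'_apply]
    exact h
  have h2 : c ∈ spectrum ℂ N := by
    rw [← Matrix.spectrum_toLin']
    exact h1.mem_spectrum
  rw [hN.spectrum_eq_image_range] at h2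
  obtain ⟨r, ⟨k, rfl⟩, hr⟩ := h2
  exact ⟨k, hr.symm⟩

theorem top_nsq_pos {n : Type*} [Fintype n] (φ : n → ℂ) (hφ : φ ≠ 0) : 0 < nsq φ := by
  rw [nsq_def]
  obtain ⟨σ, hσ⟩ : ∃ σ, φ σ ≠ 0 := by
    by_contra hcon
    exact hφ (funext fun σ => by_contra fun hσ => hcon ⟨σ, hσ⟩)
  have h1 : 0 < ‖φ σ‖ ^ 2 := by positivity
  exact lt_of_lt_of_le h1 (Finset.single_le_sum (f := fun σ => ‖φ σ‖ ^ 2)
    (fun i _ => by positivity) (Finset.mem_univ σ))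

theorem top_nsq_smul {n : Type*} [Fintype n] (c : ℂ) (φ : n → ℂ) :
    nsq (c • φ) = ‖c‖ ^ 2 * nsq φ := by
  rw [nsq_def, nsq_def, Finset.mul_sum]
  refine Finset.sum_congr rfl fun σ _ => ?_
  rw [Pi.smul_apply, smul_eq_mul, norm_mul, mul_pow]

theorem exists_top {n : Type*} [Fintype n] [DecidableEq n] (H N : Matrix n n ℂ)
    (hH : H.IsHermitian) (hN : N.IsHermitian) (hHN : H * N = N * H) (k0 : n) :
    ∃ (Ω : n → ℂ) (m : ℝ), nsq Ω = 1 ∧ H *ᵥ Ω = (hH.eigenvalues k0 : ℂ) • Ω ∧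
      N *ᵥ Ω = (m : ℂ) • Ω ∧
      ∀ (φ : n → ℂ) (m' : ℝ), φ ≠ 0 → H *ᵥ φ = (hH.eigenvalues k0 : ℂ) • φ →
        N *ᵥ φ = (m' : ℂ) • φ → m' ≤ m := by
  classical
  have hEspec : (hH.eigenvalues k0 : ℂ) ∈ spectrum ℂ H := by
    rw [hH.spectrum_eq_image_range]
    exact ⟨_, ⟨k0, rfl⟩, rfl⟩
  obtain ⟨E, hE⟩ : ∃ E : ℂ, E = (hH.eigenvalues k0 : ℂ) := ⟨_, rfl⟩
  rw [← hE] at hEspec ⊢
  have hEv : Module.End.HasEigenvalue (Matrix.toLin' H) E := by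
    rw [Module.End.hasEigenvalue_iff_mem_spectrum, Matrix.spectrum_toLin']
    exact hEspec
  obtain ⟨v0, hv0⟩ := hEv.exists_hasEigenvector
  have hG : ∀ φ : n → ℂ, φ ∈ Module.End.eigenspace (Matrix.toLin' H) E ↔ H *ᵥ φ = E • φ := by
    intro φ
    rw [Module.End.mem_eigenspace_iff, Matrix.toLin'_apply]
  have hinv : ∀ φ ∈ Module.End.eigenspace (Matrix.toLin' H) E,
      Matrix.toLin' N φ ∈ Module.End.eigenspace (Matrix.toLin' H) E := by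
    intro φ hφ
    rw [hG] at hφ ⊢
    rw [Matrix.toLin'_apply, Matrix.mulVec_mulVec, hHN, ← Matrix.mulVec_mulVec, hφ,
      Matrix.mulVec_smul]
  have hnt : Nontrivial (Module.End.eigenspace (Matrix.toLin' H) E) :=
    ⟨⟨⟨v0, hv0.1⟩, 0, fun h => hv0.2 (congrArg Subtype.val h)⟩⟩
  obtain ⟨c, hc⟩ := Module.End.exists_eigenvalue ((Matrix.toLin' N).restrict hinv)
  obtain ⟨w, hw⟩ := hc.exists_hasEigenvector
  have hw1 : N *ᵥ (w : n → ℂ) = c • (w : n → ℂ) := by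
    have h1 := Module.End.mem_eigenspace_iff.mp hw.1
    have h2 := congrArg Subtype.val h1
    rw [LinearMap.coe_restrict_apply, Matrix.toLin'_apply] at h2
    exact h2
  have hw0 : (w : n → ℂ) ≠ 0 := fun h => hw.2 (Subtype.ext h)
  have hwG : H *ᵥ (w : n → ℂ) = E • (w : n → ℂ) := (hG _).mp w.2
  obtain ⟨S, hS⟩ : ∃ S : Set ℝ, S = {m' : ℝ | ∃ φ : n → ℂ, φ ≠ 0 ∧ H *ᵥ φ = E • φ ∧
      N *ᵥ φ = (m' : ℂ) • φ} := ⟨_, rfl⟩
  have hSfin : S.Finite := by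
    apply (Set.finite_range hN.eigenvalues).subset
    intro m' hm'
    rw [hS] at hm'
    obtain ⟨φ, hφ0, -, hφN⟩ := hm'
    obtain ⟨k, hk⟩ := top_eig_real N hN φ hφ0 _ hφN
    exact ⟨k, (Complex.ofReal_injective hk).symm⟩
  obtain ⟨k1, hk1⟩ := top_eig_real N hN _ hw0 c hw1
  have hSne : S.Nonempty := by
    refine ⟨hN.eigenvalues k1, ?_⟩
    rw [hS]
    exact ⟨w, hw0, hwG, by rw [← hk1]; exact hw1⟩
  have hT : hSfin.toFinset.Nonempty := (Set.Finite.toFinset_nonempty hSfin).mpr hSne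
  have hmS : hSfin.toFinset.max' hT ∈ S :=
    (Set.Finite.mem_toFinset hSfin).mp (hSfin.toFinset.max'_mem hT)
  have hmax : ∀ m' ∈ S, m' ≤ hSfin.toFinset.max' hT := fun m' hm' =>
    hSfin.toFinset.le_max' m' ((Set.Finite.mem_toFinset hSfin).mpr hm')
  obtain ⟨m, hm⟩ : ∃ m : ℝ, m = hSfin.toFinset.max' hT := ⟨_, rfl⟩
  rw [← hm] at hmS hmax
  rw [hS] at hmS
  obtain ⟨φ, hφ0, hφH, hφN⟩ := hmS
  have hpos : 0 < nsq φ := top_nsq_pos φ hφ0
  refine ⟨(((Real.sqrt (nsq φ))⁻¹ : ℝ) : ℂ) • φ, m, ?_, ?_, ?_, ?_⟩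
  · rw [top_nsq_smul, Complex.norm_real, Real.norm_eq_abs, sq_abs, inv_pow,
      Real.sq_sqrt hpos.le, inv_mul_cancel₀ hpos.ne']
  · rw [Matrix.mulVec_smul, hφH, smul_comm]
  · rw [Matrix.mulVec_smul, hφN, smul_comm]
  · intro φ' m' hφ'0 hφ'H hφ'N
    apply hmax
    rw [hS]
    exact ⟨φ', hφ'0, hφ'H, hφ'N⟩

end Vale.Agent.Lib.P348.H93
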